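import Vale.Agent.P255.FinalDefs

/-!
# P255: closed manifolds, and the two kinds of metrics, on a manifold and on a product
-/

open scoped Manifold ContDiff

noncomputable section

namespace Vale.Agent.P255.H370

open Vale.Agent.P255

section One

variable (E : Type) [NormedAddCommGroup E] [NormedSpace ℝ E]
variable (M : Type) [TopologicalSpace M] [ChartedSpace E M] [IsManifold 𝓘(ℝ, E) ∞ M]

/-- The manifold `M` carries a smooth Riemannian metric without conjugate points. -/
def AdmitsNoConj : Prop := ∃ g : RMetric E M, NoConjugatePoints g

/-- The manifold `M` carries a smooth Riemannian metric of nonpositive sectional curvature. -/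
def AdmitsNonpos : Prop := ∃ g : RMetric E M, NonposCurvature g

end One

section Two

variable (E : Type) [NormedAddCommGroup E] [NormedSpace ℝ E]
variable (M : Type) [TopologicalSpace M] [ChartedSpace E M]
variable (F : Type) [NormedAddCommGroup F] [NormedSpace ℝ F]
variable (N : Type) [TopologicalSpace N] [ChartedSpace F N]

/-- The product charts on `M × N`, modelled on the vector space `E × F`. -/
@[reducible] def prodCharts : ChartedSpace (E × F) (M × N) :=
  inferInstanceAs (ChartedSpace (ModelProd E F) (M × N))

variable [IsManifold 𝓘(ℝ, E) ∞ M] [IsManifold 𝓘(ℝ, F) ∞ N]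

theorem prodCharts_isManifold :
    @IsManifold ℝ _ (E × F) _ _ (E × F) _ 𝓘(ℝ, E × F) ∞ (M × N) _ (prodCharts E M F N) := by
  have h : IsManifold (𝓘(ℝ, E).prod 𝓘(ℝ, F)) ∞ (M × N) := inferInstance
  rw [← modelWithCornersSelf_prod] at h
  exact h

/-- The product manifold `M × N` carries a smooth Riemannian metric without conjugate points. -/
def ProdAdmitsNoConj : Prop :=
  @AdmitsNoConj (E × F) _ _ (M × N) _ (prodCharts E M F N) (prodCharts_isManifold E M F N)

/-- The product manifold `M × N` carries a smooth Riemannian metric of nonpositive sectional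
curvature. -/
def ProdAdmitsNonpos : Prop :=
  @AdmitsNonpos (E × F) _ _ (M × N) _ (prodCharts E M F N) (prodCharts_isManifold E M F N)

end Two

end Vale.Agent.P255.H370
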