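import Vale.Agent.P255.H370.Defs
import Vale.Agent.P255.Bdl.B2

/-!
# P255: the obstruction depends only on the fundamental group; products
-/

open scoped Manifold ContDiff Topology
open Set Filter

set_option maxSynthPendingDepth 3

noncomputable section

namespace Vale.Agent.P255.H370

open Vale.Agent.P255

section Mfd

variable {E : Type} [NormedAddCommGroup E] [NormedSpace ℝ E] [FiniteDimensional ℝ E]
variable {M : Type} [TopologicalSpace M] [ChartedSpace E M] [IsManifold 𝓘(ℝ, E) ∞ M]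

/-- the vector with the components `v` in the chart at `p` -/
theorem exists_vec (p : M) (v : E) : ∃ w : TangentSpace 𝓘(ℝ, E) p,
    (mfderiv 𝓘(ℝ, E) 𝓘(ℝ, E) (chartAt E p) p w : E) = v := by
  have hp : p ∈ (chartAt E p).source := mem_chart_source E p
  have ht : chartAt E p p ∈ (chartAt E p).target := (chartAt E p).map_source hp
  have h1 := mdifferentiableAt_chart (E := E) p p hp
  have h3 := mdifferentiableAt_chart_symm (E := E) p (chartAt E p p) ht
  have h4 : (chartAt E p).symm (chartAt E p p) = p := (chartAt E p).left_inv hp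
  have h5 : MDifferentiableAt 𝓘(ℝ, E) 𝓘(ℝ, E) (chartAt E p) ((chartAt E p).symm (chartAt E p p)) := by
    rw [h4]; exact h1
  have h7 : ((chartAt E p) ∘ (chartAt E p).symm : E → E) =ᶠ[𝓝 (chartAt E p p)] id := by
    filter_upwards [(chartAt E p).open_target.mem_nhds ht] with q hq
    exact (chartAt E p).right_inv hq
  have h8 := mfderiv_comp (chartAt E p p) h5 h3
  rw [h7.mfderiv_eq, mfderiv_id] at h8
  have h9 := congrArg (fun L => L v) h8
  have h10 : ∀ q : M, q = p → ∀ z : TangentSpace 𝓘(ℝ, E) q,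
      ∃ w : TangentSpace 𝓘(ℝ, E) p, (mfderiv 𝓘(ℝ, E) 𝓘(ℝ, E) (chartAt E p) p w : E) =
        (mfderiv 𝓘(ℝ, E) 𝓘(ℝ, E) (chartAt E p) q z : E) := by
    intro q hq z
    subst hq
    exact ⟨z, rfl⟩
  obtain ⟨w, hw⟩ := h10 _ h4 (mfderiv 𝓘(ℝ, E) 𝓘(ℝ, E) (chartAt E p).symm (chartAt E p p) v)
  exact ⟨w, hw.trans h9.symm⟩

theorem noConj_of {g : Metric E M} {g' : RMetric E M}
    (h : ∀ a, ∀ u ∈ (chartAt E a).target, ∀ v w, coefIn g' a u v w = g.coef a u v w)
    (hg : NoConjugatePoints g') : NoConj g := by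
  intro γ J hγ hJ t₁ t₂ ht h1 h2
  have hγ0 : Continuous γ := continuousOn_univ.1 hγ.cont
  have hmem : ∀ a t, γ t ∈ (chartAt E a).source → cc (E := E) γ a t ∈ (chartAt E a).target :=
    fun a t ha => (chartAt E a).map_source ha
  have hcc : ∀ a, curveIn (E := E) γ a = cc γ a := fun a => rfl
  have hcont : ∀ a t, γ t ∈ (chartAt E a).source → ContinuousAt (cc (E := E) γ a) t :=
    fun a t ha => ((chartAt E a).continuousAt ha).comp hγ0.continuousAt
  choose J' hJ' using fun t : ℝ => exists_vec (γ t) (J (γ t) t)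
  have hf : ∀ a t, γ t ∈ (chartAt E a).source → fieldIn γ J' a t = J a t := by
    intro a t ha
    have e1 := mfderiv_chart_trans (γ t) a (γ t) (mem_chart_source E (γ t)) ha (J' t)
    rw [hJ' t] at e1
    exact e1.trans (hJ.compat (γ t) a t (mem_chart_source E (γ t)) ha).symm
  have hfe : ∀ a t, γ t ∈ (chartAt E a).source → fieldIn γ J' a =ᶠ[𝓝 t] J a := by
    intro a t ha
    filter_upwards [hγ0.continuousAt.eventually_mem ((chartAt E a).open_source.mem_nhds ha)]
      with s hs using hf a s hs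
  have hgeo : IsGeo g' γ := by
    refine ⟨hγ0, fun a t ha => ?_⟩
    obtain ⟨e1, e2, e3⟩ := hγ.eqn a t (mem_univ t) ha
    rw [hcc]
    refine ⟨e1, e2, ?_⟩
    rw [covDer_eq (g.isMetricOn a) (h a) (hmem a t ha)]
    unfold covD
    rw [e3]
    exact neg_add_cancel _
  have hjac : IsJac g' γ J' := by
    intro a t ha
    obtain ⟨e1, e2, e3⟩ := hJ.eqn a t ha
    rw [hcc]
    have hm := g.isMetricOn a
    have hev := covDer_eventuallyEq (Y := fieldIn γ J' a) hm (h a) (hcont a t ha) (hmem a t ha)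
    have hev2 : covD (g.coef a) (cc γ a) (fieldIn γ J' a) =ᶠ[𝓝 t]
        covD (g.coef a) (cc γ a) (J a) := by
      filter_upwards [(hfe a t ha).eventually_nhds] with s hs using covD_congr hs
    refine ⟨((hfe a t ha).differentiableAt_iff).2 e1,
      ((hev.trans hev2).differentiableAt_iff).2 e2, ?_⟩
    rw [covDer_eq hm (h a) (hmem a t ha), covD_congr (hev.trans hev2),
      riem_eq hm (h a) (hmem a t ha), hf a t ha]
    exact e3
  have hz : ∀ s, J (γ s) s = 0 → J' s = 0 := by
    intro s hs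
    apply mfderiv_chart_injective (γ s) (γ s) (mem_chart_source E (γ s)) (J' s)
    exact (hJ' s).trans hs
  intro a t ha
  have key := hg γ J' hgeo hjac t₁ t₂ ht (hz t₁ h1) (hz t₂ h2) t
  rw [← hf a t ha]
  unfold fieldIn
  rw [key]
  exact map_zero _

/-- The fundamental group of `M` contains the configuration which is impossible in the fundamental
groups of the closed manifolds of nonpositive curvature. -/
theorem not_npc_of_injective {m : M} (h : ∃ (z z' A₁ A₂ B₁ B₂ : FundamentalGroup M m),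
      Commute z A₁ ∧ Commute z A₂ ∧ A₁ * A₂ * A₁⁻¹ * A₂⁻¹ = z' ∧
      Commute z' B₁ ∧ Commute z' B₂ ∧ B₁ * B₂ * B₁⁻¹ * B₂⁻¹ = z * z'⁻¹ ∧ z' ≠ 1)
    {F : Type} [NormedAddCommGroup F] [NormedSpace ℝ F] [FiniteDimensional ℝ F]
    {N : Type} [TopologicalSpace N] [ChartedSpace F N] [IsManifold 𝓘(ℝ, F) ∞ N] [CompactSpace N]
    [T2Space N] (p : N) (φ : FundamentalGroup M m →* FundamentalGroup N p)
    (hφ : Function.Injective φ) : ¬ ∃ g : RMetric F N, NonposCurvature g := by
  rintro ⟨g, hg⟩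
  obtain ⟨z, z', A₁, A₂, B₁, B₂, h1, h2, h3, h4, h5, h6, h7⟩ := h
  obtain ⟨g', hg'⟩ := exists_metric g
  obtain ⟨e, he⟩ := exists_isExp g'
  apply h7
  apply hφ
  rw [map_one]
  refine he.obstruction_of_npc (npc_of hg' hg) p (φ z) (φ z') (φ A₁) (φ A₂) (φ B₁) (φ B₂)
    (h1.map φ) (h2.map φ) ?_ (h4.map φ) (h5.map φ) ?_
  · rw [← h3]; simp only [map_mul, map_inv]
  · have := congrArg φ h6
    simpa only [map_mul, map_inv] using this

end Mfd

theorem main (n : ℕ) (hn : 3 ≤ n) :
    ∃ (E : Type) (_ : NormedAddCommGroup E) (_ : NormedSpace ℝ E)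
      (M : Type) (_ : TopologicalSpace M) (_ : ChartedSpace E M) (_ : IsManifold 𝓘(ℝ, E) ∞ M)
      (m : M),
      Module.finrank ℝ E = n ∧
      CompactSpace M ∧ T2Space M ∧ SecondCountableTopology M ∧ ConnectedSpace M ∧
      AdmitsNoConj E M ∧ ¬ AdmitsNonpos E M ∧
      (∀ (F : Type) [NormedAddCommGroup F] [NormedSpace ℝ F] [FiniteDimensional ℝ F]
        (N : Type) [TopologicalSpace N] [ChartedSpace F N] [IsManifold 𝓘(ℝ, F) ∞ N]
        [CompactSpace N] [T2Space N] (p : N)
        (φ : FundamentalGroup M m →* FundamentalGroup N p), Function.Injective φ →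
        ¬ AdmitsNonpos F N) ∧
      (∀ (F : Type) [NormedAddCommGroup F] [NormedSpace ℝ F] [FiniteDimensional ℝ F]
        (N : Type) [TopologicalSpace N] [ChartedSpace F N] [IsManifold 𝓘(ℝ, F) ∞ N]
        [CompactSpace N] [T2Space N] [Nonempty N], AdmitsNoConj F N →
        ProdAdmitsNoConj E M F N ∧ ¬ ProdAdmitsNonpos E M F N) := by
  obtain ⟨E, i1, i2, M, i3, i4, i5, i6, h1, h2, h3, h4, h5⟩ := exists_carries (n - 3)
  have h5' := h5
  obtain ⟨⟨g, hg⟩, m, hm⟩ := h5'
  have hno : ∀ (F : Type) [NormedAddCommGroup F] [NormedSpace ℝ F] [FiniteDimensional ℝ F]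
        (N : Type) [TopologicalSpace N] [ChartedSpace F N] [IsManifold 𝓘(ℝ, F) ∞ N]
        [CompactSpace N] [T2Space N] (p : N)
        (φ : FundamentalGroup M m →* FundamentalGroup N p), Function.Injective φ →
        ¬ ∃ g : RMetric F N, NonposCurvature g :=
    fun F _ _ _ N _ _ _ _ _ p φ hφ => not_npc_of_injective hm p φ hφ
  refine ⟨E, i1, i2, M, i3, i4, i5, m, by omega, h2, h3, ?_, h4, ?_, ?_, hno, ?_⟩
  · have : SecondCountableTopology E := secondCountable_of_proper
    exact ChartedSpace.secondCountable_of_sigmaCompact E M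
  · obtain ⟨g', hg'⟩ := exists_rmetric g
    exact ⟨g', noConjugatePoints_of hg' hg⟩
  · exact hno E M m (MonoidHom.id _) Function.injective_id
  · intro F _ _ _ N _ _ _ _ _ _ hk
    obtain ⟨k, hk⟩ := hk
    obtain ⟨k', hk'⟩ := exists_metric k
    have hk2 : NoConj k' := noConj_of (fun a u _ v w => (hk' a u v w).symm) hk
    have h6 : Carries (E × F) (M × N) := h5.prod hk2
    have h7 := h6
    obtain ⟨⟨q, hq⟩, -⟩ := h7
    refine ⟨?_, ?_⟩
    · obtain ⟨q', hq'⟩ := exists_rmetric q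
      exact ⟨q', noConjugatePoints_of hq' hq⟩
    · rintro ⟨q1, hq1⟩
      obtain ⟨q', hq'⟩ := exists_metric q1
      exact h6.not_npc q' (npc_of hq' hq1)

end Vale.Agent.P255.H370
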